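import Vale.Agent.P253.MFin

/-!
Yau uniformization for Kähler manifolds with an isometric circle action with a fixed point of
positive weights at which global holomorphic functions give coordinates.
-/

open Vale.Agent.P253
open scoped Manifold ContDiff

theorem Vale.Agent.Results.P253.AA_mfd.result {n : ℕ} {X : Type*} [TopologicalSpace X]
    [T2Space X] [ConnectedSpace X] [ChartedSpace (Fin n → ℂ) X] [IsManifold 𝓘(ℂ, Fin n → ℂ) ω X]
    (K : KahlerMfd n X) (hK : K.Complete) (hb : K.NonnegBisec) (Φ : ℝ → X → X) (hΦ : K.Circle Φ)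
    (p : X) (hfix : ∀ θ, Φ θ p = p) (w : Fin n → ℕ) (hw : ∀ j, 0 < w j) (hd : Weights Φ p w)
    (hc : CoordAt n p) : IsCn n X :=
  KahlerMetric.isCn hΦ hb hK hw hfix hc hd
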